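import Vale.Agent.P032.H61.WordK
import Vale.Agent.P032.H849.Soft

/-!
# P032: the rule `no overlap' for the letters, in the frame with soft walls on lines

`Ino.noov`: if the inner and the outer colour of `S(x)` are different, the outer one is in `Pal x`;
`Wd.noov`: the same for words.  `LF3.of_sub`: the frame of locally finite three-coloured points.
-/

open Set Filter Topology Metric

noncomputable section

namespace Vale.Agent.P032.Six

variable {k : ℕ} {U : Fin k → Set ℂ} {T T' : ℂ → Set (Fin k)}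

theorem LF3.of_sub (h : LF3 U T) (hs : ∀ x ∈ XX U, T' x ⊆ T x) : LF3 U T' := by
  intro x
  obtain ⟨t, ht, hf⟩ := h x
  refine ⟨t, ht, hf.subset ?_⟩
  rintro y ⟨⟨hy, h3⟩, hyt⟩
  exact ⟨⟨hy, h3.trans (Set.ncard_le_ncard (hs y hy) (Set.toFinite _))⟩, hyt⟩

end Vale.Agent.P032.Six

namespace Vale.Agent.P032.H61

open Vale.Agent.P032.Six Vale.Agent.P032.Words Vale.Agent.P032.S5.H767 Vale.Agent.P032.H892
  Vale.Agent.P032.H913 Vale.Agent.P032.H357

variable {U : Fin 6 → Set ℂ} {T : ℂ → Set (Fin 6)} {x : ℂ} {s : ℝ} {p q : Fin 6}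

/-- the arc is in `XX U` -/
theorem Ino.arcX (I : Ino U T x s p q) (h : Irr U T) (hl : Ln U T) (hpq : p ≠ q) :
    ∀ᶠ v in 𝓝 s, pt x v ∈ XX U := by
  have hc : Tendsto (fun θ : ℝ => θ / (Real.pi / 3)) (𝓝 (s * (Real.pi / 3))) (𝓝 s) := by
    have h1 : Continuous fun θ : ℝ => θ / (Real.pi / 3) := by fun_prop
    have h2 := h1.tendsto (s * (Real.pi / 3))
    rwa [mul_div_cancel_right₀ _ (by positivity)] at h2
  have hpi : Real.pi / 3 ≠ 0 := by positivity
  have h1 : ∀ᶠ θ in 𝓝 (s * (Real.pi / 3)), T (x + cis θ) = T (x + cis (s * (Real.pi / 3))) := by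
    filter_upwards [hc.eventually I.loc] with θ hθ
    unfold pt at hθ
    rwa [div_mul_cancel₀ _ hpi] at hθ
  have h2 : 2 ≤ (T (x + cis (s * (Real.pi / 3)))).ncard := by
    have h3 : ({p, q} : Set (Fin 6)) ⊆ T (pt x s) := by
      rintro m (rfl | rfl)
      · exact I.p_mem h
      · exact I.q_mem h
    have h4 := Set.ncard_le_ncard h3 (Set.toFinite _)
    rwa [Set.ncard_pair hpq] at h4
  have h3 := hl.arc_XX h h1 h2
  have hc2 : Tendsto (fun v : ℝ => v * (Real.pi / 3)) (𝓝 s) (𝓝 (s * (Real.pi / 3))) := by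
    have h1 : Continuous fun v : ℝ => v * (Real.pi / 3) := by fun_prop
    exact h1.tendsto s
  exact hc2.eventually h3

/-- **no overlap**: different inner and outer colours: the outer one is a colour of `Pal x` -/
theorem Ino.noov (I : Ino U T x s p q) (h : Irr U T) (hl : Ln U T) (hpq : p ≠ q) : q ∈ Pal U x := by
  by_contra hq
  have hXX := I.arcX h hl hpq
  have hT := I.two h hpq hXX.self_of_nhds
  have hX : ∀ᶠ v in 𝓝 s, q ∈ Pal U (2 * pt x v - x) := by
    filter_upwards [I.loc, I.loc.eventually_nhds, hXX] with v hv hv2 h1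
    have hTv : T (pt x v) = {p, q} := hv.trans hT
    have hqv : q ∈ T (pt x v) := by rw [hTv]; simp
    obtain ⟨V, hzV, hV⟩ : ∃ V, dist (pt x v) V = 1 ∧ q ∈ Pal U V := h.partner_XX h1 q
    have harc : ∀ᶠ y in 𝓝[sphere x 1] (pt x v), q ∈ Pal U y := by
      have h3 : ∀ᶠ v' in 𝓝 v, q ∈ Pal U (pt x v') := by
        filter_upwards [hv2] with v' hv'
        exact h.sub _ (by rw [hv', hT]; simp)
      exact ev_circle x h3
    rcases h.mx.partner_line (dist_pt x v) harc hzV hV with h3 | h3
    · rw [h3] at hV; exact absurd hV hq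
    · have : V = 2 * pt x v - x := by rw [← h3]; ring
      rwa [this] at hV
  obtain ⟨η, hη, hball⟩ := Metric.mem_nhds_iff.1 hX
  set η' := min η 1 with hη'
  have hη0 : 0 < η' := lt_min hη one_pos
  have hball' : ∀ v ∈ ball s η', q ∈ Pal U (2 * pt x v - x) := fun v hv =>
    hball (ball_subset_ball (min_le_left _ _) hv)
  have hQ : IsPreconnected ((fun v => 2 * pt x v - x) '' ball s η') :=
    (convex_ball s η').isPreconnected.image _
      ((continuous_const.mul (continuous_pt x)).sub continuous_const).continuousOn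
  have hQF : (fun v => 2 * pt x v - x) '' ball s η' ⊆ closure (U q) := by
    rintro _ ⟨v, hv, rfl⟩
    exact hball' v hv
  -- the far point
  set v1 := s + η' / 2 with hv1
  have hm1 : v1 ∈ ball s η' := by
    rw [mem_ball, Real.dist_eq, hv1, add_sub_cancel_left, abs_of_pos (by linarith)]; linarith
  have hfar : 1 < dist (2 * pt x v1 - x) (pt x s) := by
    have e0 : dist (2 * pt x v1 - x) (pt x s) ^ 2 =
        5 - 4 * Real.cos (v1 * (Real.pi / 3) - s * (Real.pi / 3)) := by
      rw [sq_dist]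
      unfold pt
      have k1 : (2 * (x + cis (v1 * (Real.pi / 3))) - x : ℂ) = x + 2 * cis (v1 * (Real.pi / 3)) := by
        ring
      rw [k1]
      simp only [Complex.add_re, Complex.add_im, Complex.mul_re, Complex.mul_im, Complex.re_ofNat,
        Complex.im_ofNat, cis_re, cis_im]
      rw [Real.cos_sub]
      have h1 := Real.sin_sq_add_cos_sq (v1 * (Real.pi / 3))
      have h2 := Real.sin_sq_add_cos_sq (s * (Real.pi / 3))
      linear_combination 4 * h1 + h2
    have hle : η' ≤ 1 := min_le_right _ _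
    have hpi := Real.pi_pos
    have e1 : v1 * (Real.pi / 3) - s * (Real.pi / 3) = η' / 2 * (Real.pi / 3) := by rw [hv1]; ring
    have h3 : Real.cos (v1 * (Real.pi / 3) - s * (Real.pi / 3)) < 1 := by
      rw [e1, ← Real.cos_zero]
      exact Real.cos_lt_cos_of_nonneg_of_le_pi le_rfl (by nlinarith) (by positivity)
    have h4 : 1 < dist (2 * pt x v1 - x) (pt x s) ^ 2 := by rw [e0]; linarith
    by_contra hcon
    push Not at hcon
    have := dist_nonneg (x := 2 * pt x v1 - x) (y := pt x s)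
    nlinarith
  have hfar' : ∀ᶠ y in 𝓝 (pt x s), 1 < dist (2 * pt x v1 - x) y :=
    (continuous_const.dist continuous_id).continuousAt.eventually_const_lt hfar
  -- the near point
  have hc1 : ∀ᶠ w in 𝓝[sphere x 1] (pt x s), ∃ v ∈ ball s η', w = pt x v :=
    ev_circle x (by
      filter_upwards [ball_mem_nhds s hη0] with v hv
      exact ⟨v, hv, rfl⟩)
  have hne0 : (dist (pt x s) x : ℂ) ≠ 0 := by rw [dist_pt]; simp
  have hc2 : ContinuousAt (fun y : ℂ => x + (y - x) / (dist y x : ℂ)) (pt x s) := by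
    have k1 : ContinuousAt (fun y : ℂ => (y - x)) (pt x s) := by fun_prop
    have k2 : ContinuousAt (fun y : ℂ => ((dist y x : ℝ) : ℂ)) (pt x s) := by
      have : Continuous fun y : ℂ => ((dist y x : ℝ) : ℂ) :=
        Complex.continuous_ofReal.comp (continuous_id.dist continuous_const)
      exact this.continuousAt
    exact continuousAt_const.add (k1.div k2 hne0)
  have hval : x + (pt x s - x) / (dist (pt x s) x : ℂ) = pt x s := by
    rw [dist_pt]; simp
  have hc3 : Tendsto (fun y : ℂ => x + (y - x) / (dist y x : ℂ)) (𝓝 (pt x s))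
      (𝓝[sphere x 1] (pt x s)) := by
    refine tendsto_nhdsWithin_of_tendsto_nhds_of_eventually_within _ ?_ ?_
    · have := hc2.tendsto
      rwa [hval] at this
    · have h5 : ∀ᶠ y in 𝓝 (pt x s), y ≠ x := by
        refine isOpen_ne.mem_nhds ?_
        intro h6
        have := dist_pt x s
        rw [h6, dist_self] at this
        exact zero_ne_one this
      filter_upwards [h5] with y hy
      have hpos : 0 < dist y x := dist_pos.2 hy
      show dist (x + (y - x) / (dist y x : ℂ)) x = 1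
      rw [dist_eq_norm, add_sub_cancel_left, norm_div, Complex.norm_real, ← dist_eq_norm,
        Real.norm_of_nonneg hpos.le, div_self hpos.ne']
  have hlt : ∀ᶠ y in 𝓝 (pt x s), dist y x < 3 :=
    (continuous_id.dist continuous_const).continuousAt.eventually_lt_const
      (by simp only [id_eq, dist_pt]; norm_num)
  obtain ⟨y, ⟨hy1, hy2⟩, hy3, ⟨v, hv, hv'⟩, hy5⟩ :=
    (I.out.and_eventually (hfar'.and ((hc3.eventually hc1).and hlt))).exists
  have hyq : q ∈ Pal U y := h.sub y (by rw [hy1]; rfl)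
  refine h.mx.wlemma hQ hQF (z := y) ⟨v, hv, rfl⟩ ⟨v1, hm1, rfl⟩ ?_ hy3 hyq
  show dist (2 * pt x v - x) y < 1
  rw [← hv']
  have hpos : 0 < dist y x := by linarith
  have hne : ((dist y x : ℝ) : ℂ) ≠ 0 := by exact_mod_cast hpos.ne'
  have e1 : 2 * (x + (y - x) / (dist y x : ℂ)) - x - y =
      (((2 - dist y x) / dist y x : ℝ) : ℂ) * (y - x) := by
    push_cast
    field_simp
    ring
  rw [dist_eq_norm, e1, norm_mul, Complex.norm_real, ← dist_eq_norm, Real.norm_eq_abs, abs_div,
    abs_of_pos hpos, div_mul_cancel₀ _ hpos.ne', abs_lt]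
  constructor <;> linarith

variable {J : Type*} {K : ℕ} {a : ℕ → ℝ} {X : J → ℂ} {W : J → ℕ → ℕ → ℕ → Fin 6}

/-- **no overlap** for words -/
theorem Wd.noov (D : Wd U T K a X W) (h : Irr U T) (hl : Ln U T) {j : J} {t sd : ℕ}
    (hpq : W j t sd 0 ≠ W j t sd 1) : W j t sd 1 ∈ Pal U (X j) := by
  obtain ⟨τ, hτ⟩ := (D.fam1 sd t).exists
  exact (hτ j).noov h hl hpq

/-- different letters: the palette on the arc is exactly the pair, hard -/
theorem Wd.hard (D : Wd U T K a X W) (h : Irr U T) (hl : Ln U T) {j : J} {t sd : ℕ}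
    (hpq : W j t sd 0 ≠ W j t sd 1) :
    ∃ᶠ τ in sdf sd, pt (X j) (a t + τ) ∈ XX U ∧ T (pt (X j) (a t + τ)) = {W j t sd 0, W j t sd 1} :=
  (D.fam1 sd t).mono fun τ hτ => by
    have h1 := ((hτ j).arcX h hl hpq).self_of_nhds
    exact ⟨h1, (hτ j).two h hpq h1⟩

end Vale.Agent.P032.H61
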